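import Vale.Agent.P250.H154.Main

/-!
P250 (helper286): the Cayley transform between the model `DDG W` and the unit ball.
-/

set_option maxSynthPendingDepth 3
set_option linter.unusedSectionVars false

namespace Vale.Agent.P250.H286

open Set Filter Topology Complex Vale.Agent.P250 Vale.Agent.P250.G

variable {W : Type*} [NormedAddCommGroup W] [InnerProductSpace ℂ W]

variable (W) in
/-- the space of the ball -/
abbrev XX : Type _ := WithLp 2 (WithLp 2 (ℂ × ℂ) × W)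

/-- `W + i` -/
noncomputable def cw (q : (ℂ × ℂ) × W) : ℂ := q.1.2 + I / 2 * q.1.1 ^ 2 + I

lemma cw_im (q : (ℂ × ℂ) × W) : (cw q).im = rho q.1 + ‖q.1.1‖ ^ 2 / 2 + 1 := by
  have h : ‖q.1.1‖ ^ 2 = q.1.1.re ^ 2 + q.1.1.im ^ 2 := by
    rw [Complex.sq_norm, Complex.normSq_apply]; ring
  rw [h]
  simp only [cw, rho, Complex.add_im, Complex.mul_im, Complex.div_ofNat_re, Complex.div_ofNat_im,
    Complex.I_re, Complex.I_im, pow_two, Complex.mul_re]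
  ring

lemma cw_ne {q : (ℂ × ℂ) × W} (hq : q ∈ DDG W) : cw q ≠ 0 := by
  intro h
  have h1 := cw_im q
  rw [h] at h1
  have h2 : 0 < rho q.1 - ‖q.2‖ ^ 2 := hq
  simp only [Complex.zero_im] at h1
  nlinarith [sq_nonneg ‖q.2‖, sq_nonneg ‖q.1.1‖]

/-- the Cayley transform -/
noncomputable def Cay (q : (ℂ × ℂ) × W) : XX W :=
  WithLp.toLp 2 (WithLp.toLp 2 (((Real.sqrt 2 : ℝ) : ℂ) * q.1.1 / cw q, (cw q - 2 * I) / cw q),
    (2 / cw q) • q.2)

/-- the inverse Cayley transform -/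
noncomputable def dw (x : XX W) : ℂ := 2 * I / (1 - x.fst.snd)

/-- the inverse Cayley transform -/
noncomputable def Dec (x : XX W) : (ℂ × ℂ) × W :=
  ((x.fst.fst * dw x / ((Real.sqrt 2 : ℝ) : ℂ),
    dw x - I - I / 2 * (x.fst.fst * dw x / ((Real.sqrt 2 : ℝ) : ℂ)) ^ 2), (dw x / 2) • x.snd)

lemma s2_ne : ((Real.sqrt 2 : ℝ) : ℂ) ≠ 0 := by
  have : Real.sqrt 2 ≠ 0 := by positivity
  exact_mod_cast this

lemma cw_Dec (x : XX W) : cw (Dec x) = dw x := by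
  simp only [cw, Dec]
  ring

lemma dw_ne {x : XX W} (h : x.fst.snd ≠ 1) : dw x ≠ 0 := by
  have h1 : (1 : ℂ) - x.fst.snd ≠ 0 := sub_ne_zero.2 (Ne.symm h)
  exact div_ne_zero (mul_ne_zero two_ne_zero I_ne_zero) h1

lemma Cay_Dec {x : XX W} (h : x.fst.snd ≠ 1) : Cay (Dec x) = x := by
  have h1 : (1 : ℂ) - x.fst.snd ≠ 0 := sub_ne_zero.2 (Ne.symm h)
  have hd := dw_ne h
  have hs : (dw x - 2 * I) / dw x = x.fst.snd := by
    have : dw x * (1 - x.fst.snd) = 2 * I := div_mul_cancel₀ _ h1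
    rw [div_eq_iff hd, ← this]
    ring
  have hz : ((Real.sqrt 2 : ℝ) : ℂ) * (x.fst.fst * dw x / ((Real.sqrt 2 : ℝ) : ℂ)) / dw x
      = x.fst.fst := by
    field_simp [s2_ne, hd]
  have hη : (2 / dw x) • ((dw x / 2) • x.snd) = x.snd := by
    rw [smul_smul]
    have : 2 / dw x * (dw x / 2) = 1 := by field_simp
    rw [this, one_smul]
  have e : Cay (Dec x) = WithLp.toLp 2 (WithLp.toLp 2 (((Real.sqrt 2 : ℝ) : ℂ) *
      (x.fst.fst * dw x / ((Real.sqrt 2 : ℝ) : ℂ)) / dw x, (dw x - 2 * I) / dw x),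
      (2 / dw x) • ((dw x / 2) • x.snd)) := by
    unfold Cay
    rw [cw_Dec]
    rfl
  rw [e, hs, hz, hη]
  rfl

lemma Dec_Cay {q : (ℂ × ℂ) × W} (h : cw q ≠ 0) : Dec (Cay q) = q := by
  have hd : dw (Cay q) = cw q := by
    have e : dw (Cay q) = 2 * I / (1 - (cw q - 2 * I) / cw q) := rfl
    have e2 : 1 - (cw q - 2 * I) / cw q = 2 * I / cw q := by
      field_simp
      ring
    rw [e, e2, div_div_cancel₀]
    exact mul_ne_zero two_ne_zero I_ne_zero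
  have hz : ((Real.sqrt 2 : ℝ) : ℂ) * q.1.1 / cw q * cw q / ((Real.sqrt 2 : ℝ) : ℂ) = q.1.1 := by
    field_simp [s2_ne, h]
  have hη : (cw q / 2) • ((2 / cw q) • q.2) = q.2 := by
    rw [smul_smul]
    have : cw q / 2 * (2 / cw q) = 1 := by field_simp
    rw [this, one_smul]
  have e : Dec (Cay q) = ((((Real.sqrt 2 : ℝ) : ℂ) * q.1.1 / cw q * cw q / ((Real.sqrt 2 : ℝ) : ℂ),
      cw q - I - I / 2 * (((Real.sqrt 2 : ℝ) : ℂ) * q.1.1 / cw q * cw q /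
        ((Real.sqrt 2 : ℝ) : ℂ)) ^ 2), (cw q / 2) • ((2 / cw q) • q.2)) := by
    unfold Dec
    rw [hd]
    rfl
  rw [e, hz, hη]
  have hw : cw q - I - I / 2 * q.1.1 ^ 2 = q.1.2 := by
    simp only [cw]
    ring
  rw [hw]

lemma one_sub_norm_Cay {q : (ℂ × ℂ) × W} (h : cw q ≠ 0) :
    1 - ‖Cay q‖ ^ 2 = 4 * rhoG q / ‖cw q‖ ^ 2 := by
  have hn : ‖cw q‖ ≠ 0 := norm_ne_zero_iff.2 h
  have h1 : ‖Cay q‖ ^ 2 = ‖((Real.sqrt 2 : ℝ) : ℂ) * q.1.1 / cw q‖ ^ 2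
      + ‖(cw q - 2 * I) / cw q‖ ^ 2 + ‖(2 / cw q) • q.2‖ ^ 2 := by
    rw [WithLp.prod_norm_sq_eq_of_L2]
    congr 1
    exact WithLp.prod_norm_sq_eq_of_L2 _
  have h2 : ‖cw q - 2 * I‖ ^ 2 = ‖cw q‖ ^ 2 - 4 * (cw q).im + 4 := by
    rw [Complex.sq_norm, Complex.sq_norm, Complex.normSq_apply, Complex.normSq_apply]
    simp only [Complex.sub_re, Complex.sub_im, Complex.mul_re, Complex.mul_im, Complex.re_ofNat,
      Complex.im_ofNat, Complex.I_re, Complex.I_im]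
    ring
  have h3 : ‖((Real.sqrt 2 : ℝ) : ℂ)‖ ^ 2 = 2 := by
    rw [Complex.norm_real, Real.norm_of_nonneg (Real.sqrt_nonneg 2), Real.sq_sqrt (by norm_num)]
  rw [h1, norm_div, norm_div, norm_smul, norm_div, norm_mul, div_pow, div_pow, mul_pow, mul_pow,
    div_pow, h2, h3, cw_im]
  simp only [rhoG, Complex.norm_ofNat]
  field_simp
  ring

lemma Cay_mem {q : (ℂ × ℂ) × W} (hq : q ∈ DDG W) : ‖Cay q‖ < 1 := by
  have h1 := one_sub_norm_Cay (cw_ne hq)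
  have h2 : 0 < rhoG q := hq
  have h3 : 0 < ‖cw q‖ := norm_pos_iff.2 (cw_ne hq)
  have h4 : 0 < 1 - ‖Cay q‖ ^ 2 := by rw [h1]; positivity
  nlinarith [norm_nonneg (Cay q)]

lemma norm_snd_le (x : XX W) : ‖x.fst.snd‖ ≤ ‖x‖ := by
  have h1 : ‖x‖ ^ 2 = ‖x.fst‖ ^ 2 + ‖x.snd‖ ^ 2 := WithLp.prod_norm_sq_eq_of_L2 x
  have h2 : ‖x.fst‖ ^ 2 = ‖x.fst.fst‖ ^ 2 + ‖x.fst.snd‖ ^ 2 := WithLp.prod_norm_sq_eq_of_L2 x.fst
  have h3 : ‖x.fst.snd‖ ^ 2 ≤ ‖x‖ ^ 2 := by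
    rw [h1, h2]
    nlinarith [sq_nonneg ‖x.fst.fst‖, sq_nonneg ‖x.snd‖]
  exact (pow_le_pow_iff_left₀ (norm_nonneg _) (norm_nonneg _) two_ne_zero).1 h3

lemma snd_ne {x : XX W} (hx : ‖x‖ < 1) : x.fst.snd ≠ 1 := by
  intro h
  have := norm_snd_le x
  rw [h, norm_one] at this
  linarith

lemma rhoG_Dec {x : XX W} (hx : ‖x‖ < 1) :
    rhoG (Dec x) = (1 - ‖x‖ ^ 2) * ‖dw x‖ ^ 2 / 4 := by
  have hd := dw_ne (snd_ne hx)
  have h1 := one_sub_norm_Cay (q := Dec x) (by rw [cw_Dec]; exact hd)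
  rw [Cay_Dec (snd_ne hx), cw_Dec] at h1
  have hn : ‖dw x‖ ≠ 0 := norm_ne_zero_iff.2 hd
  rw [h1]
  field_simp

lemma Dec_mem {x : XX W} (hx : ‖x‖ < 1) : Dec x ∈ DDG W := by
  change 0 < rhoG (Dec x)
  rw [rhoG_Dec hx]
  have h3 : 0 < ‖dw x‖ := norm_pos_iff.2 (dw_ne (snd_ne hx))
  have h4 : 0 < 1 - ‖x‖ ^ 2 := by nlinarith [norm_nonneg x]
  positivity

lemma rhoG_Dec_bounds {x : XX W} (hx : ‖x‖ < 1) :
    (1 - ‖x‖) / 4 ≤ rhoG (Dec x) ∧ rhoG (Dec x) ≤ 4 / (1 - ‖x‖) := by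
  have ht : 0 < 1 - ‖x‖ := by linarith
  have h2 := norm_snd_le x
  have hlow : 1 - ‖x‖ ≤ ‖1 - x.fst.snd‖ := by
    have := norm_sub_norm_le (1 : ℂ) x.fst.snd
    rw [norm_one] at this
    linarith
  have hup : ‖1 - x.fst.snd‖ ≤ 2 := by
    have := norm_sub_le (1 : ℂ) x.fst.snd
    rw [norm_one] at this
    linarith
  have hp : 0 < ‖1 - x.fst.snd‖ := by linarith
  have hd : ‖dw x‖ = 2 / ‖1 - x.fst.snd‖ := by
    rw [dw, norm_div, norm_mul, Complex.norm_I, mul_one, Complex.norm_ofNat]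
  have hd1 : 1 ≤ ‖dw x‖ := by
    rw [hd, le_div_iff₀ hp]; linarith
  have hd2 : ‖dw x‖ ≤ 2 / (1 - ‖x‖) := by
    rw [hd]; gcongr
  rw [rhoG_Dec hx]
  have hx0 := norm_nonneg x
  have e1 : 1 - ‖x‖ ^ 2 = (1 - ‖x‖) * (1 + ‖x‖) := by ring
  constructor
  · have h5 : 1 - ‖x‖ ≤ 1 - ‖x‖ ^ 2 := by nlinarith
    have h6 : 1 ≤ ‖dw x‖ ^ 2 := by nlinarith
    have h7 : (1 - ‖x‖) * 1 ≤ (1 - ‖x‖ ^ 2) * ‖dw x‖ ^ 2 :=
      mul_le_mul h5 h6 zero_le_one (by linarith)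
    linarith
  · have h6 : ‖dw x‖ ^ 2 ≤ (2 / (1 - ‖x‖)) ^ 2 := by gcongr
    have h7 : (1 - ‖x‖ ^ 2) * ‖dw x‖ ^ 2 ≤ ((1 - ‖x‖) * 2) * (2 / (1 - ‖x‖)) ^ 2 := by
      rw [e1]
      gcongr
      linarith
    have h8 : ((1 - ‖x‖) * 2) * (2 / (1 - ‖x‖)) ^ 2 = 8 / (1 - ‖x‖) := by
      field_simp
      ring
    rw [h8] at h7
    have h9 : 8 / (1 - ‖x‖) / 4 ≤ 4 / (1 - ‖x‖) := by
      rw [div_div, div_le_div_iff₀ (by positivity) ht]
      nlinarith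
    linarith

lemma differentiableOn_Cay : DifferentiableOn ℂ (Cay (W := W)) (DDG W) := by
  have hcw : Differentiable ℂ (cw (W := W)) := by
    unfold cw
    fun_prop
  have hinv : DifferentiableOn ℂ (fun q : (ℂ × ℂ) × W => (cw q)⁻¹) (DDG W) :=
    hcw.differentiableOn.inv fun q hq => cw_ne hq
  have h1 : DifferentiableOn ℂ (fun q : (ℂ × ℂ) × W =>
      ((Real.sqrt 2 : ℝ) : ℂ) * q.1.1 / cw q) (DDG W) := by
    simp only [div_eq_mul_inv]
    refine DifferentiableOn.mul ?_ hinv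
    fun_prop
  have h2 : DifferentiableOn ℂ (fun q : (ℂ × ℂ) × W => (cw q - 2 * I) / cw q) (DDG W) := by
    simp only [div_eq_mul_inv]
    exact (hcw.differentiableOn.sub_const _).mul hinv
  have h3 : DifferentiableOn ℂ (fun q : (ℂ × ℂ) × W => (2 / cw q) • q.2) (DDG W) := by
    simp only [div_eq_mul_inv]
    refine DifferentiableOn.smul (hinv.const_mul _) (by fun_prop)
  have h4 : DifferentiableOn ℂ (fun q : (ℂ × ℂ) × W =>
      (WithLp.prodContinuousLinearEquiv 2 ℂ ℂ ℂ).symm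
        (((Real.sqrt 2 : ℝ) : ℂ) * q.1.1 / cw q, (cw q - 2 * I) / cw q)) (DDG W) :=
    (WithLp.prodContinuousLinearEquiv 2 ℂ ℂ ℂ).symm.differentiable.comp_differentiableOn
      (h1.prodMk h2)
  exact (WithLp.prodContinuousLinearEquiv 2 ℂ (WithLp 2 (ℂ × ℂ)) W).symm.differentiable.comp_differentiableOn
      (h4.prodMk h3)

lemma differentiableOn_Dec : DifferentiableOn ℂ (Dec (W := W)) (Metric.ball 0 1) := by
  have hf : Differentiable ℂ (fun x : XX W => x.fst.fst) := by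
    have h : (fun x : XX W => x.fst.fst) = fun x => (WithLp.prodContinuousLinearEquiv 2 ℂ ℂ ℂ
      (WithLp.prodContinuousLinearEquiv 2 ℂ (WithLp 2 (ℂ × ℂ)) W x).1).1 := rfl
    rw [h]
    fun_prop
  have hs : Differentiable ℂ (fun x : XX W => x.fst.snd) := by
    have h : (fun x : XX W => x.fst.snd) = fun x => (WithLp.prodContinuousLinearEquiv 2 ℂ ℂ ℂ
      (WithLp.prodContinuousLinearEquiv 2 ℂ (WithLp 2 (ℂ × ℂ)) W x).1).2 := rfl
    rw [h]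
    fun_prop
  have hη : Differentiable ℂ (fun x : XX W => x.snd) := by
    have h : (fun x : XX W => x.snd) = fun x =>
      (WithLp.prodContinuousLinearEquiv 2 ℂ (WithLp 2 (ℂ × ℂ)) W x).2 := rfl
    rw [h]
    fun_prop
  have hd : DifferentiableOn ℂ (dw (W := W)) (Metric.ball 0 1) := by
    have h : dw (W := W) = fun x => 2 * I * (1 - x.fst.snd)⁻¹ := by
      funext x
      rw [dw, div_eq_mul_inv]
    rw [h]
    refine DifferentiableOn.const_mul ?_ _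
    have h5 : DifferentiableOn ℂ (fun x : XX W => 1 - x.fst.snd) (Metric.ball 0 1) :=
      (hs.const_sub 1).differentiableOn
    refine h5.inv fun x hx => ?_
    rw [mem_ball_zero_iff] at hx
    exact sub_ne_zero.2 (Ne.symm (snd_ne hx))
  have h1 : DifferentiableOn ℂ (fun x : XX W => x.fst.fst * dw x / ((Real.sqrt 2 : ℝ) : ℂ))
      (Metric.ball 0 1) := by
    simp only [div_eq_mul_inv]
    exact (hf.differentiableOn.mul hd).mul_const _
  have h2 : DifferentiableOn ℂ (fun x : XX W => dw x - I - I / 2 *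
      (x.fst.fst * dw x / ((Real.sqrt 2 : ℝ) : ℂ)) ^ 2) (Metric.ball 0 1) :=
    (hd.sub_const _).sub ((h1.pow 2).const_mul _)
  have h3 : DifferentiableOn ℂ (fun x : XX W => (dw x / 2) • x.snd) (Metric.ball 0 1) := by
    simp only [div_eq_mul_inv]
    exact (hd.mul_const _).smul hη.differentiableOn
  exact (h1.prodMk h2).prodMk h3

end Vale.Agent.P250.H286
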