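import Vale.Agent.P250.Stmt

/-!
Definitions used in the statement: Hartogs domains over the unit ball, biholomorphic sets.
-/

namespace Vale.Agent.P250.H286

open Set

/-- The Hartogs domain `{(x, w) : |x| < 1, |w| < r(x)}` over the unit ball of `ℂᵈ`. -/
def Hartogs {d : ℕ} (r : EuclideanSpace ℂ (Fin d) → ℝ) : Set (EuclideanSpace ℂ (Fin d) × ℂ) :=
  {p | ‖p.1‖ < 1 ∧ ‖p.2‖ < r p.1}

/-- There are mutually inverse holomorphic maps between `M` and `U`. -/
def Biholomorphic {E E' : Type*} [NormedAddCommGroup E] [NormedSpace ℂ E]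
    [NormedAddCommGroup E'] [NormedSpace ℂ E'] (M : Set E) (U : Set E') : Prop :=
  ∃ (F : E → E') (G : E' → E), DifferentiableOn ℂ F M ∧ DifferentiableOn ℂ G U ∧
    MapsTo F M U ∧ MapsTo G U M ∧ (∀ p ∈ M, G (F p) = p) ∧ (∀ q ∈ U, F (G q) = q)

end Vale.Agent.P250.H286
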