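import Vale.Agent.P250.H286.Cayley

/-!
P250 (helper286): the weight `phiG` is bounded below by a multiple of `-|log ρ| - 1`.
-/

set_option maxSynthPendingDepth 3

namespace Vale.Agent.P250.H286

open Set Filter Topology Vale.Agent.P250 Vale.Agent.P250.G Vale.Agent.P250.StarPhi

lemma exists_lower {CΨ Λ : ℝ} {Ψ : ℂ → ℝ} (hΨ : IsPsi CΨ Λ Ψ) :
    ∃ B : ℝ, 0 ≤ B ∧ ∀ ζ : ℂ, ‖ζ‖ ≤ 1 → -B ≤ Ψ ζ := by
  obtain ⟨B, hB⟩ := (isCompact_closedBall (0 : ℂ) 1).exists_bound_of_continuousOn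
    (f := Ψ) hΨ.smooth.continuous.continuousOn
  refine ⟨max B 0, le_max_right _ _, fun ζ hζ => ?_⟩
  have h := hB ζ (by simpa using hζ)
  rw [Real.norm_eq_abs] at h
  have := neg_abs_le (Ψ ζ)
  have := le_max_left B 0
  linarith

lemma Sk_lower {Ψ : ℂ → ℝ} {B : ℝ} (hB : ∀ ζ : ℂ, ‖ζ‖ ≤ 1 → -B ≤ Ψ ζ) {lam : ℝ}
    (hlam : 0 < lam) (k : ℕ) {q : ℂ × ℂ} (hq : 0 ≤ rho q) : -B ≤ Sk Ψ lam k q := by
  rw [Sk_eq]
  apply hB
  rw [norm_exp_I, om_im]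
  apply Real.exp_le_one_iff.2
  have : 0 ≤ lam ^ (2 * k) * (rho q + (q.1.im - xx lam k (jj lam k q)) ^ 2) := by positivity
  linarith

lemma phi_zero_lower {CΨ Λ : ℝ} {Ψ : ℂ → ℝ} (hΨ : IsPsi CΨ Λ Ψ) {B : ℝ} (hB0 : 0 ≤ B)
    (hB : ∀ ζ : ℂ, ‖ζ‖ ≤ 1 → -B ≤ Ψ ζ) {lam : ℝ} (hlam : 2 ≤ lam) {q : ℂ × ℂ}
    (hq : 0 < rho q) : -B * (max (-Real.log (rho q)) 0 + 4) ≤ phi Ψ lam 0 q := by
  set T : ℝ := max (-Real.log (rho q)) 0 with hT
  have hT0 : 0 ≤ T := le_max_right _ _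
  have hT1 : -Real.log (rho q) ≤ T := le_max_left _ _
  set N : ℕ := ⌈T + 2⌉₊ with hN
  have hN1 : T + 2 ≤ N := Nat.le_ceil _
  have hN2 : (N : ℝ) < T + 2 + 1 := Nat.ceil_lt_add_one (by linarith)
  have h5 : 5 ≤ lam ^ (2 * (N + 1)) * rho q := by
    have h1 : (2 : ℝ) ^ (2 * (N + 1)) ≤ lam ^ (2 * (N + 1)) := by gcongr
    have h2 : Real.exp (N + 1 : ℝ) ≤ (2 : ℝ) ^ (2 * (N + 1)) := by
      have h3 : Real.exp 1 ≤ 4 := by
        have := Real.exp_one_lt_d9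
        linarith
      have h4 : Real.exp (N + 1 : ℝ) = Real.exp 1 ^ (N + 1) := by
        rw [← Real.exp_nat_mul]
        push_cast
        ring_nf
      rw [h4, pow_mul]
      have : ((2 : ℝ) ^ 2) = 4 := by norm_num
      rw [this]
      exact pow_le_pow_left₀ (Real.exp_pos 1).le h3 _
    have h3 : rho q = Real.exp (Real.log (rho q)) := (Real.exp_log hq).symm
    have h4 : Real.exp 3 ≤ Real.exp (N + 1 : ℝ) * rho q := by
      rw [h3, ← Real.exp_add]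
      apply Real.exp_le_exp.2
      linarith
    have h6 : (5 : ℝ) ≤ Real.exp 3 := by
      have h7 : Real.exp 3 = Real.exp 1 ^ 3 := by
        rw [← Real.exp_nat_mul]
        norm_num
      rw [h7]
      have h8 := Real.exp_one_gt_d9
      have h9 : (2 : ℝ) ≤ Real.exp 1 := by linarith
      calc (5 : ℝ) ≤ 2 ^ 3 := by norm_num
        _ ≤ _ := pow_le_pow_left₀ (by norm_num) h9 3
    calc (5 : ℝ) ≤ Real.exp 3 := h6
      _ ≤ Real.exp (N + 1 : ℝ) * rho q := h4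
      _ ≤ lam ^ (2 * (N + 1)) * rho q := mul_le_mul_of_nonneg_right (h2.trans h1) hq.le
  have hl0 : 0 < lam := by linarith
  rw [phi_eq hΨ (by linarith only [hlam]) 0 hq h5]
  have h6 : -B * N ≤ ∑ k ∈ Finset.range N, Sk Ψ lam k q := by
    have : ∑ k ∈ Finset.range N, (-B) ≤ ∑ k ∈ Finset.range N, Sk Ψ lam k q :=
      Finset.sum_le_sum fun k _ => Sk_lower hB hl0 k hq.le
    simpa [mul_comm] using this
  have h7 := Sk_lower hB hl0 N hq.le
  have h8 : -B * (T + 4) ≤ -B * N - B := by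
    nlinarith
  simp only [neg_zero, zero_mul, zero_add]
  linarith

variable {W : Type*} [NormedAddCommGroup W] [InnerProductSpace ℂ W]

/-- the weight on the ball is at least a multiple of `-log` of the distance to the boundary -/
lemma phiG_Dec_lower {CΨ Λ : ℝ} {Ψ : ℂ → ℝ} (hΨ : IsPsi CΨ Λ Ψ) {B : ℝ} (hB0 : 0 ≤ B)
    (hB : ∀ ζ : ℂ, ‖ζ‖ ≤ 1 → -B ≤ Ψ ζ) {lam ε : ℝ} (hlam : 2 ≤ lam) (hε : 0 ≤ ε) {x : XX W}
    (hx : ‖x‖ < 1) :
    -phiG Ψ lam ε (Dec x) ≤ (ε + B) * (-Real.log (1 - ‖x‖)) + (ε * Real.log 4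
      + B * (Real.log 4 + 4)) := by
  obtain ⟨h1, h2⟩ := rhoG_Dec_bounds hx
  have ht : 0 < 1 - ‖x‖ := by linarith
  have hm : Dec x ∈ DDG W := Dec_mem hx
  have hr : 0 < rhoG (Dec x) := hm
  have hL : 0 ≤ -Real.log (1 - ‖x‖) := by
    have := Real.log_nonpos ht.le (by linarith [norm_nonneg x])
    linarith
  have h4 : 0 < Real.log 4 := Real.log_pos (by norm_num)
  have hup : Real.log (rhoG (Dec x)) ≤ Real.log 4 - Real.log (1 - ‖x‖) := by
    rw [← Real.log_div (by norm_num) ht.ne']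
    exact Real.log_le_log hr h2
  have hlo : Real.log (1 - ‖x‖) - Real.log 4 ≤ Real.log (rhoG (Dec x)) := by
    rw [← Real.log_div ht.ne' (by norm_num)]
    exact Real.log_le_log (by positivity) h1
  have hrr : rhoG (Dec x) ≤ rho (Dec x).1 := by
    have : rhoG (Dec x) = rho (Dec x).1 - ‖(Dec x).2‖ ^ 2 := rfl
    nlinarith [sq_nonneg ‖(Dec x).2‖]
  have hr1 : 0 < rho (Dec x).1 := hr.trans_le hrr
  have h5 := phi_zero_lower hΨ hB0 hB hlam hr1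
  have h6 : max (-Real.log (rho (Dec x).1)) 0 ≤ -Real.log (1 - ‖x‖) + Real.log 4 := by
    apply max_le
    · have := Real.log_le_log hr hrr
      linarith
    · linarith
  have h7 : B * (max (-Real.log (rho (Dec x).1)) 0 + 4)
      ≤ B * ((-Real.log (1 - ‖x‖) + Real.log 4) + 4) := by
    gcongr
  have h8 : ε * Real.log (rhoG (Dec x)) ≤ ε * (Real.log 4 - Real.log (1 - ‖x‖)) := by
    gcongr
  rw [Ch.phiG_eq]
  linarith

end Vale.Agent.P250.H286
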