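import Mathlib.MeasureTheory.Constructions.HaarToSphere
import Mathlib.MeasureTheory.Measure.Lebesgue.VolumeOfBalls
import Mathlib.Analysis.SpecialFunctions.Integrability.Basic
import Mathlib.MeasureTheory.Measure.Haar.Unique

/-!
P250 (helper286): the moment estimate.  The Hartogs domain `{|w| < C (1 - |x|²)^(-β)}` over the
unit ball has a finite `m`-th moment if `(m + 2) β ≤ 1/2`.
-/

namespace Vale.Agent.P250.H286

open MeasureTheory Set Metric ENNReal

section Ball

variable {X : Type*} [NormedAddCommGroup X] [NormedSpace ℝ X] [FiniteDimensional ℝ X]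
  [Nontrivial X] [MeasurableSpace X] [BorelSpace X]

/-- `(1 - |x|²)^(-1/2)` is integrable on the unit ball. -/
lemma integrableOn_ball_rpow (μ : Measure X) [μ.IsAddHaarMeasure] :
    IntegrableOn (fun x : X => (1 - ‖x‖) ^ (-(1 / 2) : ℝ)) (ball 0 1) μ := by
  have h := (integrableOn_fun_norm_addHaar (E := X) μ (f := fun y : ℝ => (1 - y) ^ (-(1 / 2) : ℝ))
    (r := 1)).2
  apply h
  have h1 : IntervalIntegrable (fun y : ℝ => (1 - y) ^ (-(1 / 2) : ℝ)) volume 0 1 := by
    have h2 : IntervalIntegrable (fun y : ℝ => y ^ (-(1 / 2) : ℝ)) volume 0 1 :=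
      intervalIntegral.intervalIntegrable_rpow' (by norm_num)
    have h3 := h2.comp_sub_left 1
    simp only [sub_zero, sub_self] at h3
    exact h3.symm
  have h4 : IntegrableOn (fun y : ℝ => (1 - y) ^ (-(1 / 2) : ℝ)) (Ioo 0 1) volume :=
    ((intervalIntegrable_iff_integrableOn_Ioc_of_le zero_le_one).1 h1).mono_set Ioo_subset_Ioc_self
  refine Integrable.mono' h4 ?_ ?_
  · have hc : Continuous (fun y : ℝ => y ^ (Module.finrank ℝ X - 1)) := by fun_prop
    have hc' : AEStronglyMeasurable (fun y : ℝ => y ^ (Module.finrank ℝ X - 1))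
      (volume.restrict (Ioo 0 1)) := hc.aestronglyMeasurable
    exact hc'.smul h4.aestronglyMeasurable
  · rw [ae_restrict_iff' measurableSet_Ioo]
    refine Filter.Eventually.of_forall fun y hy => ?_
    have h5 : 0 ≤ (1 - y) ^ (-(1 / 2) : ℝ) := Real.rpow_nonneg (by linarith [hy.2]) _
    rw [smul_eq_mul, norm_mul, Real.norm_of_nonneg h5, norm_pow, Real.norm_of_nonneg hy.1.le]
    exact mul_le_of_le_one_left h5 (pow_le_one₀ hy.1.le hy.2.le)

/-- The moment estimate. -/
lemma integrableOn_hartogs (μ : Measure X) [μ.IsAddHaarMeasure] (m : ℕ) (β C : ℝ) (hC : 1 ≤ C)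
    (hβ : 0 ≤ β) (hm : (m + 2) * β ≤ 1 / 2) (U : Set (X × ℂ))
    (hU : ∀ p ∈ U, ‖p.1‖ < 1 ∧ ‖p.2‖ ≤ C * (1 - ‖p.1‖) ^ (-β)) :
    IntegrableOn (fun p : X × ℂ => (1 + ‖p‖) ^ m) U (μ.prod volume) := by
  set R : X → ℝ := fun x => C * (1 - ‖x‖) ^ (-β) with hR
  set V : Set (X × ℂ) := {p | ‖p.1‖ < 1 ∧ ‖p.2‖ ≤ R p.1} with hV
  have hRm : Measurable R := by
    refine Measurable.const_mul ?_ C
    exact (measurable_const.sub measurable_norm).pow_const _
  have hVm : MeasurableSet V := by
    refine MeasurableSet.inter ?_ ?_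
    · exact measurableSet_lt (measurable_norm.comp measurable_fst) measurable_const
    · exact measurableSet_le (measurable_norm.comp measurable_snd) (hRm.comp measurable_fst)
  suffices h : IntegrableOn (fun p : X × ℂ => (1 + ‖p‖) ^ m) V (μ.prod volume) from
    h.mono_set fun p hp => hU p hp
  have hcont : Continuous (fun p : X × ℂ => (1 + ‖p‖) ^ m) := by fun_prop
  refine ⟨hcont.aestronglyMeasurable, ?_⟩
  have hR1 : ∀ x : X, ‖x‖ < 1 → 1 ≤ R x := by
    intro x hx
    have h1 : 1 ≤ (1 - ‖x‖) ^ (-β) :=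
      Real.one_le_rpow_of_pos_of_le_one_of_nonpos (by linarith) (by linarith [norm_nonneg x])
        (by linarith)
    calc (1 : ℝ) = 1 * 1 := by ring
      _ ≤ C * (1 - ‖x‖) ^ (-β) := mul_le_mul hC h1 zero_le_one (by linarith)
  have hb : ∀ p ∈ V, ‖(1 + ‖p‖) ^ m‖ₑ ≤ ENNReal.ofReal ((3 * R p.1) ^ m) := by
    intro p hp
    rw [← ofReal_norm, Real.norm_of_nonneg (by positivity)]
    apply ENNReal.ofReal_le_ofReal
    have h1 := hR1 p.1 hp.1
    have h2 : ‖p‖ ≤ 2 * R p.1 := by
      rw [Prod.norm_def]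
      exact max_le (by linarith [hp.1]) (by linarith [hp.2])
    exact pow_le_pow_left₀ (by positivity) (by linarith) m
  rw [HasFiniteIntegral]
  calc ∫⁻ p in V, ‖(1 + ‖p‖) ^ m‖ₑ ∂(μ.prod volume)
      ≤ ∫⁻ p in V, ENNReal.ofReal ((3 * R p.1) ^ m) ∂(μ.prod volume) := setLIntegral_mono' hVm hb
    _ = ∫⁻ p, V.indicator (fun p => ENNReal.ofReal ((3 * R p.1) ^ m)) p ∂(μ.prod volume) := by
        rw [lintegral_indicator hVm]
    _ = ∫⁻ x, ∫⁻ w, V.indicator (fun p => ENNReal.ofReal ((3 * R p.1) ^ m)) (x, w) ∂volume ∂μ := by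
        refine lintegral_prod _ ?_
        refine (Measurable.indicator ?_ hVm).aemeasurable
        exact (((hRm.comp measurable_fst).const_mul 3).pow_const m).ennreal_ofReal
    _ ≤ ∫⁻ x, (ball (0 : X) 1).indicator (fun x => ENNReal.ofReal
          (3 ^ m * C ^ (m + 2) * Real.pi * (1 - ‖x‖) ^ (-(1 / 2) : ℝ))) x ∂μ := by
        refine lintegral_mono fun x => ?_
        by_cases hx : ‖x‖ < 1
        · rw [indicator_of_mem (mem_ball_zero_iff.2 hx)]
          have h0 : 0 < 1 - ‖x‖ := by linarith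
          have h3 : ∀ w : ℂ, V.indicator (fun p => ENNReal.ofReal ((3 * R p.1) ^ m)) (x, w) =
              (closedBall (0 : ℂ) (R x)).indicator (fun _ => ENNReal.ofReal ((3 * R x) ^ m)) w := by
            intro w
            by_cases hw : ‖w‖ ≤ R x
            · rw [indicator_of_mem (mem_closedBall_zero_iff.2 hw)]
              exact indicator_of_mem (show (x, w) ∈ V from ⟨hx, hw⟩) _
            · rw [indicator_of_notMem (fun h => hw (mem_closedBall_zero_iff.1 h)),
                indicator_of_notMem (fun h : (x, w) ∈ V => hw h.2)]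
          simp only [h3]
          rw [lintegral_indicator measurableSet_closedBall, setLIntegral_const,
            Complex.volume_closedBall]
          have h4 : (NNReal.pi : ℝ≥0∞) = ENNReal.ofReal Real.pi := by
            rw [← NNReal.coe_real_pi, ENNReal.ofReal_coe_nnreal]
          have hR0 : 0 ≤ R x := by linarith [hR1 x hx]
          rw [h4, ← ENNReal.ofReal_pow hR0, ← ENNReal.ofReal_mul (by positivity),
            ← ENNReal.ofReal_mul (by positivity)]
          apply ENNReal.ofReal_le_ofReal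
          have h5 : ((1 - ‖x‖) ^ (-β)) ^ (m + 2) ≤ (1 - ‖x‖) ^ (-(1 / 2) : ℝ) := by
            rw [← Real.rpow_natCast, ← Real.rpow_mul h0.le]
            apply Real.rpow_le_rpow_of_exponent_ge h0 (by linarith [norm_nonneg x])
            push_cast
            linarith
          calc (3 * R x) ^ m * (R x ^ 2 * Real.pi)
              = 3 ^ m * C ^ (m + 2) * Real.pi * ((1 - ‖x‖) ^ (-β)) ^ (m + 2) := by
                simp only [hR]
                ring
            _ ≤ _ := by
                have : 0 ≤ 3 ^ m * C ^ (m + 2) * Real.pi := by positivity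
                exact mul_le_mul_of_nonneg_left h5 this
        · have h3 : ∀ w : ℂ, V.indicator (fun p => ENNReal.ofReal ((3 * R p.1) ^ m)) (x, w) = 0 :=
            fun w => indicator_of_notMem (fun h : (x, w) ∈ V => hx h.1) _
          simp only [h3, lintegral_zero]
          exact bot_le
    _ = ∫⁻ x in ball (0 : X) 1, ENNReal.ofReal
          (3 ^ m * C ^ (m + 2) * Real.pi * (1 - ‖x‖) ^ (-(1 / 2) : ℝ)) ∂μ := by
        rw [lintegral_indicator measurableSet_ball]
    _ < ⊤ := by
        have h6 := ((integrableOn_ball_rpow μ).const_mul (3 ^ m * C ^ (m + 2) * Real.pi))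
        exact h6.lintegral_lt_top

end Ball

end Vale.Agent.P250.H286
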