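import Vale.Agent.P250.H286.Lower
import Vale.Agent.P250.H286.Moment
import Vale.Agent.P250.H286.Defs

/-!
P250 (helper286): the counterexamples are Hartogs domains of finite volume over the ball, whose
radius function grows slower than any given power of the distance to the boundary.
-/

set_option maxSynthPendingDepth 3
set_option linter.unusedSectionVars false

namespace Vale.Agent.P250.H286

open Set Filter Topology MeasureTheory Vale.Agent.P250 Vale.Agent.P250.G Metric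

section W

variable {W : Type*} [NormedAddCommGroup W] [InnerProductSpace ℂ W] [FiniteDimensional ℂ W]

variable (W) in
/-- the weight: `e^(-χ)` grows slower than the given power of the distance to the boundary -/
theorem exists_chiM (η : ℝ) (hη : 0 < η) : ∃ χ : (ℂ × ℂ) × W → ℝ,
    ContDiffOn ℝ (⊤ : ℕ∞) χ (DDG W) ∧ NoFunction (fun q => χ (q, 0)) ∧
    (∃ C : ℝ, 1 ≤ C ∧ ∀ x : XX W, ‖x‖ < 1 → Real.exp (-χ (Dec x)) ≤ C * (1 - ‖x‖) ^ (-η)) ∧
    ∃ ε0 C0 C3 C4 : ℝ, 0 < ε0 ∧ 0 < C0 ∧ 0 < C3 ∧ 0 < C4 ∧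
      UniformJetsG (WithLp 2 (EuclideanSpace ℂ (Fin 2) × W)) (DDG W) PhiG ε0 C0 C3 C4 χ := by
  obtain ⟨CΨ, hC, hΨ⟩ := exists_Psi
  obtain ⟨Ψ, hΨ⟩ := hΨ (1000 * ((CΨ + 2) + (CΨ + 2) + 1) + 2)
  obtain ⟨lam, hlam, hlam'⟩ := star_phi CΨ _ hC Ψ hΨ
  obtain ⟨ε, hε, hε'⟩ := hlam' lam le_rfl
  have hS := hε' ε hε le_rfl
  have hsm := phi_contDiffOn CΨ _ Ψ hΨ lam ε hlam
  have hsmG := phiG_contDiffOn (W := W) CΨ _ Ψ hΨ lam ε hlam
  obtain ⟨s0, hs0, hs⟩ := noFunction_of_star (phi Ψ lam ε) 4 (CΨ + 2) (CΨ + 2) _ hsm.continuousOn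
    (by norm_num) (by linarith) (by linarith) (by linarith) hS
  obtain ⟨B, hB0, hB⟩ := exists_lower hΨ
  have hεB : 0 < ε + B := by linarith
  set s : ℝ := min (s0 / 2) (η / (ε + B)) with hs'
  have hspos : 0 < s := lt_min (half_pos hs0) (div_pos hη hεB)
  have hss0 : s < s0 := (min_le_left _ _).trans_lt (half_lt_self hs0)
  have hsη : s * (ε + B) ≤ η := by
    rw [← le_div_iff₀ hεB]
    exact min_le_right _ _
  set A : ℝ := ε * Real.log 4 + B * (Real.log 4 + 4) with hA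
  have hA0 : 0 ≤ A := by
    have : 0 < Real.log 4 := Real.log_pos (by norm_num)
    positivity
  refine ⟨fun q => s * phiG Ψ lam ε q, contDiffOn_const.mul hsmG, ?_,
    ⟨Real.exp (s * A), Real.one_le_exp (by positivity), fun x hx => ?_⟩, ?_⟩
  · simp only [phiG_zero]
    exact hs s hspos hss0
  · have h1 := phiG_Dec_lower (W := W) hΨ hB0 hB hlam hε.le hx
    have ht : 0 < 1 - ‖x‖ := by linarith
    have hL : 0 ≤ -Real.log (1 - ‖x‖) := by
      have := Real.log_nonpos ht.le (by linarith [norm_nonneg x])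
      linarith
    rw [Real.rpow_def_of_pos ht, ← Real.exp_add]
    apply Real.exp_le_exp.2
    have h2 := mul_le_mul_of_nonneg_left h1 hspos.le
    have h3 : s * (ε + B) * (-Real.log (1 - ‖x‖)) ≤ η * (-Real.log (1 - ‖x‖)) :=
      mul_le_mul_of_nonneg_right hsη hL
    calc -(s * phiG Ψ lam ε (Dec x)) = s * -phiG Ψ lam ε (Dec x) := by ring
      _ ≤ s * ((ε + B) * (-Real.log (1 - ‖x‖)) + A) := h2
      _ = s * (ε + B) * (-Real.log (1 - ‖x‖)) + s * A := by ring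
      _ ≤ η * (-Real.log (1 - ‖x‖)) + s * A := by linarith
      _ = s * A + Real.log (1 - ‖x‖) * -η := by ring
  · exact phiG_uniformJets CΨ _ Ψ hΨ lam ε hlam hε s hspos

variable (W) in
theorem main_WM (η : ℝ) (hη : 0 < η) : ∃ (χ : (ℂ × ℂ) × W → ℝ)
    (g : ((ℂ × ℂ) × W) × ℂ → ((ℂ × ℂ) × W) × ℂ → ((ℂ × ℂ) × W) × ℂ → ℝ)
    (Γ : ((ℂ × ℂ) × W) × ℂ → ((ℂ × ℂ) × W) × ℂ → ((ℂ × ℂ) × W) × ℂ → ((ℂ × ℂ) × W) × ℂ),
    IsOpen (MMg (DDG W) χ) ∧ SimplyConnectedSpace (MMg (DDG W) χ) ∧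
    S.IsKaehlerMetric g (MMg (DDG W) χ) ∧ S.IsLeviCivita g Γ (MMg (DDG W) χ) ∧
    S.GeodesicallyComplete Γ (MMg (DDG W) χ) ∧
    (∃ a b : ℝ, 0 < a ∧ a ≤ b ∧ ∀ p ∈ MMg (DDG W) χ, ∀ X Y, LinearIndependent ℝ ![X, Y] →
      -b ≤ S.sectional g Γ p X Y ∧ S.sectional g Γ p X Y ≤ -a) ∧
    ¬ S.BiholomorphicToBoundedDomain (MMg (DDG W) χ) ∧
    ContDiffOn ℝ (⊤ : ℕ∞) χ (DDG W) ∧
    ∃ C : ℝ, 1 ≤ C ∧ ∀ x : XX W, ‖x‖ < 1 → Real.exp (-χ (Dec x)) ≤ C * (1 - ‖x‖) ^ (-η) := by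
  obtain ⟨χ, hχ, hN, hB, ε0, C0, C3, C4, h0, h1, h3, h4, hU⟩ := exists_chiM W η hη
  obtain ⟨C, hf⟩ := goodExhaustion_DDG (W := W)
  obtain ⟨g, Γ, hM, hS, hK, hΓ, hC, ⟨a, b, ha, hab, hab'⟩⟩ := disc_bundle (DDG W) isOpen_DDG
    convex_DDG DDG_nonempty PhiG PhiG_contDiffOn exG C hf ε0 C0 C3 C4 h0 h1 h3 h4 χ hχ hU
  refine ⟨χ, fun p X Y => g p X Y, fun p X Y => Γ p X Y, hM, hS, transfer_kaehler hM hK,
    transfer_leviCivita hM hK.toIsRiemannianMetric hΓ, transfer_complete hC,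
    ⟨a, b, ha, hab, fun p hp X Y hXY => ?_⟩,
    transfer_biholo (not_biholo_G χ hχ.continuousOn hN), hχ, hB⟩
  rw [transfer_sectional (differentiableAt_of_open hM hΓ.smooth hp)]
  exact hab' p hp X Y hXY

lemma mem_MMg_iff {χ : (ℂ × ℂ) × W → ℝ} {q : (ℂ × ℂ) × W} {v : ℂ} :
    (q, v) ∈ MMg (DDG W) χ ↔ q ∈ DDG W ∧ ‖v‖ < Real.exp (-χ q) := by
  have h : ‖v‖ ^ 2 * Real.exp (2 * χ q) < 1 ↔ ‖v‖ < Real.exp (-χ q) := by
    have e : ‖v‖ ^ 2 * Real.exp (2 * χ q) = (‖v‖ * Real.exp (χ q)) ^ 2 := by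
      rw [mul_pow, ← Real.exp_nat_mul]
      norm_num
    rw [e, sq_lt_one_iff₀ (by positivity), Real.exp_neg, ← one_div,
      lt_div_iff₀ (Real.exp_pos _)]
  exact and_congr_right fun _ => h

omit [FiniteDimensional ℂ W] in
lemma contDiffOn_Dec : ContDiffOn ℝ (⊤ : ℕ∞) (Dec (W := W)) (Metric.ball 0 1) := by
  have hf : ContDiff ℂ (⊤ : ℕ∞) (fun x : XX W => x.fst.fst) := by
    have h : (fun x : XX W => x.fst.fst) = fun x => (WithLp.prodContinuousLinearEquiv 2 ℂ ℂ ℂ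
      (WithLp.prodContinuousLinearEquiv 2 ℂ (WithLp 2 (ℂ × ℂ)) W x).1).1 := rfl
    rw [h]
    fun_prop
  have hs : ContDiff ℂ (⊤ : ℕ∞) (fun x : XX W => x.fst.snd) := by
    have h : (fun x : XX W => x.fst.snd) = fun x => (WithLp.prodContinuousLinearEquiv 2 ℂ ℂ ℂ
      (WithLp.prodContinuousLinearEquiv 2 ℂ (WithLp 2 (ℂ × ℂ)) W x).1).2 := rfl
    rw [h]
    fun_prop
  have hη : ContDiff ℂ (⊤ : ℕ∞) (fun x : XX W => x.snd) := by
    have h : (fun x : XX W => x.snd) = fun x =>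
      (WithLp.prodContinuousLinearEquiv 2 ℂ (WithLp 2 (ℂ × ℂ)) W x).2 := rfl
    rw [h]
    fun_prop
  have hd : ContDiffOn ℂ (⊤ : ℕ∞) (dw (W := W)) (Metric.ball 0 1) := by
    have h : dw (W := W) = fun x => 2 * Complex.I * (1 - x.fst.snd)⁻¹ := by
      funext x
      rw [dw, div_eq_mul_inv]
    rw [h]
    refine contDiffOn_const.mul ?_
    have h5 : ContDiffOn ℂ (⊤ : ℕ∞) (fun x : XX W => 1 - x.fst.snd) (Metric.ball 0 1) :=
      (contDiff_const.sub hs).contDiffOn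
    refine h5.inv fun x hx => ?_
    rw [mem_ball_zero_iff] at hx
    exact sub_ne_zero.2 (Ne.symm (snd_ne hx))
  have h1 : ContDiffOn ℂ (⊤ : ℕ∞) (fun x : XX W => x.fst.fst * dw x / ((Real.sqrt 2 : ℝ) : ℂ))
      (Metric.ball 0 1) := by
    simp only [div_eq_mul_inv]
    exact (hf.contDiffOn.mul hd).mul contDiffOn_const
  have h2 : ContDiffOn ℂ (⊤ : ℕ∞) (fun x : XX W => dw x - Complex.I - Complex.I / 2 *
      (x.fst.fst * dw x / ((Real.sqrt 2 : ℝ) : ℂ)) ^ 2) (Metric.ball 0 1) :=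
    (hd.sub contDiffOn_const).sub (contDiffOn_const.mul (h1.pow 2))
  have h3 : ContDiffOn ℂ (⊤ : ℕ∞) (fun x : XX W => (dw x / 2) • x.snd) (Metric.ball 0 1) := by
    simp only [div_eq_mul_inv]
    exact (hd.mul contDiffOn_const).smul hη.contDiffOn
  exact ((h1.prodMk h2).prodMk h3).restrict_scalars ℝ

/-- The disc bundle is a Hartogs domain over the ball. -/
theorem hartogs_of (χ : (ℂ × ℂ) × W → ℝ) (hχ : ContDiffOn ℝ (⊤ : ℕ∞) χ (DDG W)) {d : ℕ}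
    (ι : XX W ≃ₗᵢ[ℂ] EuclideanSpace ℂ (Fin d)) (C : ℝ) (hC : 1 ≤ C) (η : ℝ)
    (hB : ∀ x : XX W, ‖x‖ < 1 → Real.exp (-χ (Dec x)) ≤ C * (1 - ‖x‖) ^ (-η)) :
    ∃ r : EuclideanSpace ℂ (Fin d) → ℝ, ContDiffOn ℝ (⊤ : ℕ∞) r (ball 0 1) ∧
      (∀ x ∈ ball (0 : EuclideanSpace ℂ (Fin d)) 1, 0 < r x ∧ r x ≤ (1 - ‖x‖) ^ (-η)) ∧
      Biholomorphic (MMg (DDG W) χ) (Hartogs r) := by
  have hC0 : 0 < C := by linarith
  have hCc : (C : ℂ) ≠ 0 := by exact_mod_cast hC0.ne'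
  have hnC : ‖(C : ℂ)‖ = C := by rw [Complex.norm_real, Real.norm_of_nonneg hC0.le]
  have hmaps : MapsTo ι.symm (ball (0 : EuclideanSpace ℂ (Fin d)) 1) (ball (0 : XX W) 1) := by
    intro x hx
    rw [mem_ball_zero_iff] at hx ⊢
    rwa [ι.symm.norm_map]
  have hmapsD : MapsTo (Dec (W := W)) (ball 0 1) (DDG W) := fun x hx =>
    Dec_mem (mem_ball_zero_iff.1 hx)
  refine ⟨fun x => Real.exp (-χ (Dec (ι.symm x))) / C, ?_, fun x hx => ⟨by positivity, ?_⟩, ?_⟩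
  · have hι : ContDiff ℝ (⊤ : ℕ∞) (fun x => ι.symm x) :=
      (ι.symm.toContinuousLinearEquiv.toContinuousLinearMap.contDiff).restrict_scalars ℝ
    have h1 : ContDiffOn ℝ (⊤ : ℕ∞) (fun x => χ (Dec (ι.symm x)))
        (ball (0 : EuclideanSpace ℂ (Fin d)) 1) :=
      (hχ.comp contDiffOn_Dec hmapsD).comp hι.contDiffOn hmaps
    exact (h1.neg.exp).div_const _
  · have hx' : ‖ι.symm x‖ < 1 := mem_ball_zero_iff.1 (hmaps hx)
    have h2 := hB _ hx'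
    rw [ι.symm.norm_map] at h2
    rw [div_le_iff₀ hC0]
    linarith
  · refine ⟨fun p => (ι (Cay p.1), p.2 / C), fun p => (Dec (ι.symm p.1), C * p.2), ?_, ?_, ?_, ?_,
      ?_, ?_⟩
    · have h1 : DifferentiableOn ℂ (fun p : ((ℂ × ℂ) × W) × ℂ => ι (Cay p.1))
          (MMg (DDG W) χ) := by
        refine ι.toContinuousLinearEquiv.differentiable.comp_differentiableOn ?_
        exact differentiableOn_Cay.comp (t := DDG W) (f := fun p : ((ℂ × ℂ) × W) × ℂ => p.1)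
          differentiable_fst.differentiableOn fun p hp => hp.1
      refine h1.prodMk ?_
      simp only [div_eq_mul_inv]
      fun_prop
    · have h1 : DifferentiableOn ℂ (fun p : EuclideanSpace ℂ (Fin d) × ℂ => Dec (ι.symm p.1))
          (Hartogs fun x => Real.exp (-χ (Dec (ι.symm x))) / C) := by
        refine differentiableOn_Dec.comp
          (t := ball 0 1) (f := fun p : EuclideanSpace ℂ (Fin d) × ℂ => ι.symm p.1) ?_
          fun p hp => hmaps (mem_ball_zero_iff.2 hp.1)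
        exact (ι.symm.toContinuousLinearEquiv.differentiable.comp
          differentiable_fst).differentiableOn
      refine h1.prodMk ?_
      fun_prop
    · rintro ⟨q, v⟩ hp
      obtain ⟨hq, hv⟩ := mem_MMg_iff.1 hp
      refine ⟨?_, ?_⟩
      · change ‖ι (Cay q)‖ < 1
        rw [ι.norm_map]
        exact Cay_mem hq
      · change ‖v / (C : ℂ)‖ < Real.exp (-χ (Dec (ι.symm (ι (Cay q))))) / C
        rw [ι.symm_apply_apply, Dec_Cay (cw_ne hq), norm_div, hnC]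
        gcongr
    · rintro ⟨x, w⟩ ⟨hx, hw⟩
      have hx' : ‖ι.symm x‖ < 1 := by rwa [ι.symm.norm_map]
      refine mem_MMg_iff.2 ⟨Dec_mem hx', ?_⟩
      change ‖w‖ < Real.exp (-χ (Dec (ι.symm x))) / C at hw
      rw [norm_mul, hnC, mul_comm]
      rwa [lt_div_iff₀ hC0] at hw
    · rintro ⟨q, v⟩ hp
      obtain ⟨hq, hv⟩ := mem_MMg_iff.1 hp
      change (Dec (ι.symm (ι (Cay q))), (C : ℂ) * (v / C)) = (q, v)
      rw [ι.symm_apply_apply, Dec_Cay (cw_ne hq), mul_div_cancel₀ _ hCc]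
    · rintro ⟨x, w⟩ ⟨hx, hw⟩
      have hx' : ‖ι.symm x‖ < 1 := by
        rw [ι.symm.norm_map]
        exact hx
      change (ι (Cay (Dec (ι.symm x))), ((C : ℂ) * w) / C) = (x, w)
      rw [Cay_Dec (snd_ne hx'), ι.apply_symm_apply, mul_div_cancel_left₀ _ hCc]

end W

open Vale.Agent.P250.G.Tr in
theorem main_all (n : ℕ) (hn : 3 ≤ n) (m : ℕ) (η : ℝ) (hη : 0 < η) :
    ∃ (M : Set (EuclideanSpace ℂ (Fin n)))
      (g : EuclideanSpace ℂ (Fin n) → EuclideanSpace ℂ (Fin n) → EuclideanSpace ℂ (Fin n) → ℝ)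
      (Γ : EuclideanSpace ℂ (Fin n) → EuclideanSpace ℂ (Fin n) → EuclideanSpace ℂ (Fin n)
        → EuclideanSpace ℂ (Fin n)),
    IsOpen M ∧ SimplyConnectedSpace M ∧ S.IsKaehlerMetric g M ∧ S.IsLeviCivita g Γ M ∧
    S.GeodesicallyComplete Γ M ∧
    (∃ a b : ℝ, 0 < a ∧ a ≤ b ∧ ∀ p ∈ M, ∀ X Y, LinearIndependent ℝ ![X, Y] →
      -b ≤ S.sectional g Γ p X Y ∧ S.sectional g Γ p X Y ≤ -a) ∧
    ¬ S.BiholomorphicToBoundedDomain M ∧
    ∃ r : EuclideanSpace ℂ (Fin (n - 1)) → ℝ, ContDiffOn ℝ (⊤ : ℕ∞) r (ball 0 1) ∧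
      (∀ x ∈ ball (0 : EuclideanSpace ℂ (Fin (n - 1))) 1, 0 < r x ∧ r x ≤ (1 - ‖x‖) ^ (-η)) ∧
      IntegrableOn (fun p => (1 + ‖p‖) ^ m) (Hartogs r) volume ∧
      Biholomorphic M (Hartogs r) := by
  obtain ⟨k, rfl⟩ := Nat.exists_eq_add_of_le hn
  set η' : ℝ := min η (1 / (2 * (m + 2))) with hη'
  have hη'0 : 0 < η' := lt_min hη (by positivity)
  obtain ⟨χ, g, Γ, h1, h2, h3, h4, h5, h6, h7, hχ, C, hC, hB⟩ :=
    main_WM (EuclideanSpace ℂ (Fin k)) η' hη'0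
  have hd : Module.finrank ℂ (((ℂ × ℂ) × EuclideanSpace ℂ (Fin k)) × ℂ)
      = Module.finrank ℂ (EuclideanSpace ℂ (Fin (3 + k))) := by
    simp
    omega
  set e := ContinuousLinearEquiv.ofFinrankEq hd with he
  obtain ⟨M', g', Γ', hM', i1, i2, i3, i4, i5, i6, i7⟩ :=
    H154.transport' e _ g Γ h1 h2 h3 h4 h5 h6 h7
  have hd2 : Module.finrank ℂ (XX (EuclideanSpace ℂ (Fin k))) = 3 + k - 1 := by
    have h8 : Module.finrank ℂ (XX (EuclideanSpace ℂ (Fin k)))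
        = Module.finrank ℂ ((ℂ × ℂ) × EuclideanSpace ℂ (Fin k)) := by
      rw [(WithLp.linearEquiv 2 ℂ (WithLp 2 (ℂ × ℂ) × EuclideanSpace ℂ (Fin k))).finrank_eq,
        Module.finrank_prod, Module.finrank_prod,
        (WithLp.linearEquiv 2 ℂ (ℂ × ℂ)).finrank_eq]
    rw [h8]
    simp
  let ι : XX (EuclideanSpace ℂ (Fin k)) ≃ₗᵢ[ℂ] EuclideanSpace ℂ (Fin (3 + k - 1)) :=
    ((stdOrthonormalBasis ℂ (XX (EuclideanSpace ℂ (Fin k)))).reindex (finCongr hd2)).repr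
  obtain ⟨r, hr, hr1, F, G, hF, hG, hFm, hGm, hGF, hFG⟩ := hartogs_of χ hχ ι C hC η' hB
  refine ⟨M', g', Γ', i1, i2, i3, i4, i5, i6, i7, r, hr, fun x hx => ⟨(hr1 x hx).1, ?_⟩, ?_, ?_⟩
  · have hx1 := mem_ball_zero_iff.1 hx
    refine (hr1 x hx).2.trans ?_
    apply Real.rpow_le_rpow_of_exponent_ge (by linarith) (by linarith [norm_nonneg x])
    have := min_le_left η (1 / (2 * ((m : ℝ) + 2)))
    linarith
  · have h9 : ((m : ℝ) + 2) * η' ≤ 1 / 2 := by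
      have h10 : η' ≤ 1 / (2 * ((m : ℝ) + 2)) := min_le_right _ _
      have h11 : (0 : ℝ) < (m : ℝ) + 2 := by positivity
      calc ((m : ℝ) + 2) * η' ≤ ((m : ℝ) + 2) * (1 / (2 * ((m : ℝ) + 2))) := by gcongr
        _ = 1 / 2 := by field_simp
    have : Nontrivial (EuclideanSpace ℂ (Fin (3 + k - 1))) := by
      have : Nonempty (Fin (3 + k - 1)) := ⟨⟨0, by omega⟩⟩
      infer_instance
    refine integrableOn_hartogs (X := EuclideanSpace ℂ (Fin (3 + k - 1))) volume m η' 1 le_rfl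
      hη'0.le h9 (Hartogs r) fun p hp => ⟨hp.1, ?_⟩
    rw [one_mul]
    exact hp.2.le.trans (hr1 p.1 (mem_ball_zero_iff.2 hp.1)).2
  · refine ⟨fun q => F (e.symm q), fun q => e (G q), ?_, ?_, ?_, ?_, ?_, ?_⟩
    · rw [hM']
      exact hF.comp e.symm.differentiable.differentiableOn fun q hq => hq
    · exact e.differentiable.comp_differentiableOn hG
    · intro q hq
      rw [hM'] at hq
      exact hFm hq
    · intro q hq
      rw [hM']
      change e.symm (e (G q)) ∈ MMg (DDG (EuclideanSpace ℂ (Fin k))) χ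
      rw [e.symm_apply_apply]
      exact hGm hq
    · intro q hq
      rw [hM'] at hq
      change e (G (F (e.symm q))) = q
      rw [hGF _ hq, e.apply_symm_apply]
    · intro q hq
      change F (e.symm (e (G q))) = q
      rw [e.symm_apply_apply, hFG q hq]

end Vale.Agent.P250.H286
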